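import Vale.Agent.P237.All.Complete.Bounds

/-!
P237: Petty's projection volume conjecture in every dimension.
-/

noncomputable section

namespace Vale.Agent.Results.P237.PettyConjecture

open Vale.Agent.P237.All

/-- Petty's inequality in every dimension at least three, with equality exactly for ellipsoids. -/
theorem result : PettyAll :=
  petty_all_of_bounds Transport.bounds

end Vale.Agent.Results.P237.PettyConjecture
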