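import Vale.Agent.P237.Sharp.Final
import Vale.Agent.P237.Sharp.Radial
import Vale.Agent.P237.Sharp.Moments
import Vale.Agent.P237.Sharp.Kernel
import Vale.Agent.P237.Sharp.Moment
import Vale.Agent.P237.Sharp.Local
import Vale.Agent.P237.Sharp.Step
import Vale.Agent.P237.Sharp.Law
import Vale.Agent.P237.Sharp.Shape
import Vale.Agent.P237.Sharp.Bottom
import Vale.Agent.P237.Sharp.Global

/-!
P237: Petty's projection volume conjecture in all sufficiently high dimensions.
-/

noncomputable section

open Vale.Agent.P237.Sharp (PettyHighDim PettyStability PettyEquality)

namespace Vale.Agent.Results.P237.PettyHighDimension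

/-- For all large `n` Petty's inequality holds for every convex body, with equality exactly for
ellipsoids and with a margin exponential in `n` times the isoperimetric excess. -/
theorem result : PettyHighDim ∧ PettyStability ∧ PettyEquality := by
  open Vale.Agent.P237.Sharp in
  exact petty_all (framePetty
    (localPetty radialTest sphereMoments (gradKernel sphereMoments)
      (fourBound radialTest sphereMoments) (momentBound radialTest sphereMoments))
    (globalPetty radialTest goodMost (lossShape projMoments) (stepIneq projMoments sphereMoments)
      (bottomBound radialTest sphereMoments)))

end Vale.Agent.Results.P237.PettyHighDimension
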